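import Vale.Agent.P190.H128.Defs
import Vale.Agent.P190.H128.E20
import Vale.Agent.P190.H455.Defs
import Vale.Agent.P190.H455.Main

/-! A universal obstruction to small Cohen-Macaulay modules: not only complete local domains. -/

namespace Vale.Agent.Results.P190.EveryLocalRing

open Vale.Agent.P190.H128 Vale.Agent.P190.H455 IsLocalRing

universe v

/-- (1) One normal domain `R₀`, module-finite over `ℤ[x₁,x₂,x₃]`, obstructs: a Noetherian local
ring `S` (not necessarily complete, nor a domain) with a ring homomorphism `R₀ → S` sending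
`x₁, x₂, x₃` (together with the residue characteristic, if it is positive) to part of a system of
parameters has no small Cohen-Macaulay module.
(2) Every Noetherian local ring `S` over `ℚ` of dimension at least three has a module-finite
extension `S'`, split over `S`, that obstructs.
(3) Every Noetherian local domain `S` of characteristic zero, of dimension at least four, or of
dimension at least three if its residue field has characteristic zero, has a module-finite
extension domain that obstructs.
(4) If moreover `S` is complete, the extension can be taken to be a complete normal local domain.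
(5) Examples in mixed characteristic `(0, p)`, for every prime `p` and dimension `d ≥ 4`. -/
theorem result :
    (∃ (R₀ : Type) (_ : CommRing R₀) (_ : IsDomain R₀) (_ : Algebra (MvPolynomial (Fin 3) ℤ) R₀),
      Module.Finite (MvPolynomial (Fin 3) ℤ) R₀ ∧ IsIntegrallyClosed R₀ ∧
      Function.Injective (algebraMap (MvPolynomial (Fin 3) ℤ) R₀) ∧
      ∀ (S : Type) [CommRing S] [IsLocalRing S] [IsNoetherianRing S] (f : R₀ →+* S),
        IsParam S (fun i => f (algebraMap (MvPolynomial (Fin 3) ℤ) R₀ (MvPolynomial.X i))) →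
        NoSmallCM.{v} S) ∧
    (∀ (S : Type) [CommRing S] [IsLocalRing S] [IsNoetherianRing S] [Algebra ℚ S],
      3 ≤ ringKrullDim S →
      ∃ (S' : Type) (_ : CommRing S') (_ : Algebra S S'), Module.Finite S S' ∧
        (∃ ρ : S' →ₗ[S] S, ρ 1 = 1) ∧ Obstructs.{v} S S' ∧
        ∃ (n : Ideal S') (_ : n.IsMaximal),
          ringKrullDim (Localization.AtPrime n) = ringKrullDim S ∧
          NoSmallCM.{v} (Localization.AtPrime n)) ∧
    (∀ (S : Type) [CommRing S] [IsDomain S] [IsLocalRing S] [IsNoetherianRing S] [CharZero S],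
      (4 ≤ ringKrullDim S ∨ 3 ≤ ringKrullDim S ∧ CharZero (ResidueField S)) →
      ∃ (S' : Type) (_ : CommRing S') (_ : IsDomain S') (_ : Algebra S S'),
        Module.Finite S S' ∧ Function.Injective (algebraMap S S') ∧ Obstructs.{v} S S' ∧
        ∃ (n : Ideal S') (_ : n.IsMaximal),
          ringKrullDim (Localization.AtPrime n) = ringKrullDim S ∧
          NoSmallCM.{v} (Localization.AtPrime n)) ∧
    (∀ (S : Type) [CommRing S] [IsDomain S] [IsLocalRing S] [IsNoetherianRing S] [CharZero S]
      [IsAdicComplete (maximalIdeal S) S] (d : ℕ), ringKrullDim S = d →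
      (4 ≤ d ∨ 3 ≤ d ∧ CharZero (ResidueField S)) →
      ∃ (R : Type) (_ : CommRing R) (_ : IsLocalRing R) (_ : Algebra S R),
        Module.Finite S R ∧ Function.Injective (algebraMap S R) ∧ IsCounterexample.{v} R d ∧
        Obstructs.{v} S R) ∧
    (∀ p d : ℕ, p.Prime → 4 ≤ d → ∃ (R : Type) (_ : CommRing R) (_ : IsLocalRing R),
      CharZero R ∧ CharP (ResidueField R) p ∧ IsCounterexample.{v} R d) := by
  refine ⟨?_, ?_, ?_, ?_, ?_⟩
  · obtain ⟨R₀, r1, r2, r3, hfin, hnorm, hinj, c, s, G, hrel⟩ := exists_R0
    refine ⟨R₀, r1, r2, r3, hfin, hnorm, hinj, ?_⟩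
    intro S _ _ _ f hf
    exact univ_local S _ hf _ _ _ (hrel.map f)
  · intro S _ _ _ _ h3
    obtain ⟨S', s1, s2, hfin, ⟨ρ, hρ⟩, hk⟩ := exists_cover.{v} S h3
    have hinj : Function.Injective (algebraMap S S') := by
      intro a b hab
      have h1 := congrArg ρ hab
      rw [Algebra.algebraMap_eq_smul_one, Algebra.algebraMap_eq_smul_one, map_smul, map_smul, hρ,
        smul_eq_mul, mul_one, smul_eq_mul, mul_one] at h1
      exact h1
    obtain ⟨n, hn, hn2⟩ := exists_max S S' hinj
    exact ⟨S', s1, s2, hfin, ⟨ρ, hρ⟩, hk, n, hn, hn2, noSmall_localization S S' hk n hn2⟩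
  · intro S _ _ _ _ _ h
    obtain ⟨S', s1, s2, s3, hfin, hinj, hk⟩ := exists_cover_all.{v} S h
    obtain ⟨n, hn, hn2⟩ := exists_max S S' hinj
    exact ⟨S', s1, s2, s3, hfin, hinj, hk, n, hn, hn2, noSmall_localization S S' hk n hn2⟩
  · intro S _ _ _ _ _ hS d hd h
    exact complete_cover S hS d hd h
  · intro p d hp hd
    exact main_mixed p hp d hd

end Vale.Agent.Results.P190.EveryLocalRing
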