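import Vale.Agent.P190.H128.E15
import Vale.Agent.P190.H455.Cohen

/-! Every complete local domain of characteristic zero, of dimension at least three if it contains
the rational numbers, of dimension at least four if it has mixed characteristic, has a
module-finite extension without small Cohen-Macaulay modules. -/

namespace Vale.Agent.Results.P190.MixedCharacteristic

open Vale.Agent.P190.H455 Vale.Agent.P190.H128

universe v

/-- (1) Every complete Noetherian local domain `B` that contains `ℚ` and has dimension `d ≥ 3` has
a module-finite extension ring `R` that is a complete normal local domain of dimension `d`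
without small Cohen-Macaulay modules.
(2) The same for every complete Noetherian local domain `B` of characteristic zero and dimension
`d ≥ 4` with (any) residue field of characteristic `p`, for every prime `p`.
(3) For every prime `p` and every `d ≥ 4` there is a complete normal local domain of dimension
`d` and of mixed characteristic `(0, p)` without small Cohen-Macaulay modules. -/
theorem result :
    (∀ (B : Type) [CommRing B] [IsDomain B] [IsLocalRing B] [IsNoetherianRing B] [Algebra ℚ B]
      [IsAdicComplete (IsLocalRing.maximalIdeal B) B] (d : ℕ), 3 ≤ d →
      ringKrullDim B = (d : ℕ) →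
      ∃ (R : Type) (_ : CommRing R) (_ : IsLocalRing R) (_ : Algebra B R),
        Module.Finite B R ∧ Function.Injective (algebraMap B R) ∧
        IsCounterexample.{v} R d) ∧
    (∀ (B : Type) [CommRing B] [IsDomain B] [IsLocalRing B] [IsNoetherianRing B] [CharZero B]
      [IsAdicComplete (IsLocalRing.maximalIdeal B) B] (p : ℕ) [Fact p.Prime]
      [CharP (IsLocalRing.ResidueField B) p] (d : ℕ), 4 ≤ d → ringKrullDim B = (d : ℕ) →
      ∃ (R : Type) (_ : CommRing R) (_ : IsLocalRing R) (_ : Algebra B R),
        Module.Finite B R ∧ Function.Injective (algebraMap B R) ∧
        IsCounterexample.{v} R d) ∧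
    (∀ (p : ℕ), p.Prime → ∀ (d : ℕ), 4 ≤ d →
      ∃ (R : Type) (_ : CommRing R) (_ : IsLocalRing R), CharZero R ∧
        CharP (IsLocalRing.ResidueField R) p ∧ IsCounterexample.{v} R d) :=
  ⟨fun B _ _ _ _ _ _ d hd hdim => Vale.Agent.P190.H455.main_equal B d hd hdim,
    fun B _ _ _ _ _ hB p hp _ d hd hdim => main_mixed_all p hp.out B hB d hdim hd,
    fun p hp d hd => main_mixed p hp d hd⟩

end Vale.Agent.Results.P190.MixedCharacteristic
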