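import Vale.Agent.P190.H455.Rank7

/-! Small Cohen-Macaulay modules: there are none over suitable finite extensions when the residue
characteristic is zero, and their ranks are unbounded, over extensions of bounded rank, when the
residue characteristic grows. -/

namespace Vale.Agent.Results.P190.RankGrowth

open Vale.Agent.P190.H455

universe v

/-- (1) There is a complete Noetherian local domain without small Cohen-Macaulay modules.
(2) There are `N` and `P` such that for every complete regular local ring `B` of dimension
`d ≥ 3`, with residue field of characteristic `p`, and every module-finite extension domain `E` of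
`B`: if `p = 0` or `p` is at least `P [E : B] 0`, then `E` has a module-finite extension `R` of
rank at most `N` over `E` that is a complete normal local domain of dimension `d` and such that,
for all `r` with `p = 0` or `p ≥ P [E : B] r`, every small Cohen-Macaulay `R`-module has rank
greater than `r` over `R` (so for `p = 0` there is none). -/
theorem result :
    (∃ (R : Type) (_ : CommRing R) (_ : IsDomain R) (_ : IsLocalRing R),
      IsNoetherianRing R ∧ IsAdicComplete (IsLocalRing.maximalIdeal R) R ∧
      ∀ (M : Type v) [AddCommGroup M] [Module R M], ¬ SmallCM R M) ∧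
    (∃ (N : ℕ) (P : ℕ → ℕ → ℕ), ∀ (B : Type) [CommRing B] [IsRegularLocalRing B]
      [IsAdicComplete (IsLocalRing.maximalIdeal B) B] (d : ℕ), 3 ≤ d →
      ringKrullDim B = (d : ℕ) →
      ∀ (p : ℕ) [CharP (IsLocalRing.ResidueField B) p] (E : Type) [CommRing E] [IsDomain E]
      [Algebra B E] [Module.Finite B E], Function.Injective (algebraMap B E) →
      (p = 0 ∨ P (Module.finrank B E) 0 ≤ p) →
      ∃ (R : Type) (_ : CommRing R) (_ : IsDomain R) (_ : IsLocalRing R) (_ : Algebra E R),
        Module.Finite E R ∧ Function.Injective (algebraMap E R) ∧ Module.finrank E R ≤ N ∧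
        IsNoetherianRing R ∧ IsIntegrallyClosed R ∧
        IsAdicComplete (IsLocalRing.maximalIdeal R) R ∧ ringKrullDim R = (d : ℕ) ∧
        ∀ r : ℕ, (p = 0 ∨ P (Module.finrank B E) r ≤ p) →
          ∀ (M : Type v) [AddCommGroup M] [Module R M], SmallCM R M →
            r < Module.finrank R M) := by
  refine ⟨?_, main_rank⟩
  have hg := (goodBase_field ℚ).mvPowerSeries 3
  have h1 := hg.dom
  obtain ⟨R, i1, i2, -, -, -, h⟩ := main_field.{0} ℚ 3 le_rfl (MvPowerSeries (Fin 3) ℚ)
    (fun _ _ h => h)
  refine ⟨R, i1, h.isDomain, i2, h.isNoetherianRing, h.isAdicComplete, fun M _ _ hM => ?_⟩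
  obtain ⟨M', m1, m2, ⟨hf, rs, hrs, hreg, hlen⟩, -⟩ := hM.exists_type
  have h2 := h.depth_lt M' rs hrs hreg
  rw [h.ringKrullDim_eq] at hlen
  have h3 : rs.length = 3 := by exact_mod_cast hlen
  omega

end Vale.Agent.Results.P190.RankGrowth
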